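import Vale.Agent.P205F.Chart.Cover
import Vale.Agent.P205F.Chart.Frame
import Vale.Agent.P205F.Chart.Twisted

/-!
# P205, main: one twist glued into the surface

A twist is found in one chart and replaces the map there. Outside a compact set of the chart
nothing changes, so immersion, goodness and the cap bounds are kept.
-/

namespace Vale.Agent.P205F

open Set Function Filter
open scoped Manifold ContDiff RealInnerProductSpace Topology

variable {M : Type*} [TopologicalSpace M] [ChartedSpace E2 M]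

namespace Chart

lemma glue_eventuallyEq [T2Space M] {V : Type*} (ψ : Chart M) {u : E2 → V} {f : M → V}
    {K : Set E2} (hK : IsCompact K) (hoff : ∀ x, x ∉ K → u x = f (ψ.toFun x)) {p : M}
    (hp : p ∉ ψ.toFun '' K) : ψ.glue u f =ᶠ[𝓝 p] f := by
  filter_upwards [(hK.image ψ.continuous).isClosed.isOpen_compl.mem_nhds hp] with q hq
  exact ψ.glue_eq_off hoff hq

lemma glue_comp {V : Type*} (ψ : Chart M) (u : E2 → V) (f : M → V) :
    (fun z => ψ.glue u f (ψ.toFun z)) = u := by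
  funext z; simp


/-- Immersion is kept. -/
lemma isImm_glue [T2Space M] (ψ : Chart M) {u : E2 → R4} {f : M → R4} {K : Set E2}
    (hu : ContDiff ℝ ∞ u) (hf : ContMDiff (𝓡 2) (𝓡 4) ∞ f) (hK : IsCompact K)
    (hoff : ∀ x, x ∉ K → u x = f (ψ.toFun x)) (hiu : IsImm u)
    (hif : ∀ φ : Chart M, IsImm fun z => f (φ.toFun z)) (φ : Chart M) :
    IsImm fun z => ψ.glue u f (φ.toFun z) := by
  intro x
  by_cases h : φ.toFun x ∈ range ψ.toFun
  · rw [fderiv_change ψ φ (ψ.glue_contMDiff hu hf hK hoff) h, glue_comp]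
    exact (hiu _).comp (ψ.trans_fderiv_injective φ h)
  · have he : (fun z => ψ.glue u f (φ.toFun z)) =ᶠ[𝓝 x] fun z => f (φ.toFun z) :=
      (ψ.glue_eventuallyEq hK hoff (p := φ.toFun x)
        fun ⟨y, _, hy⟩ => h ⟨y, hy⟩).comp_tendsto φ.continuous.continuousAt
    rw [he.fderiv_eq]
    exact hif φ x

/-- Goodness is kept. -/
lemma gdAt_glue [T2Space M] (ψ : Chart M) {u : E2 → R4} {f : M → R4} {K U : Set E2}
    (hK : IsCompact K) (hKU : K ⊆ U) (hoff : ∀ x, x ∉ K → u x = f (ψ.toFun x))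
    (hU : ∀ x ∈ U, GdAt u x) {p : M} (hp : GdAt f p) : GdAt (ψ.glue u f) p := by
  by_cases h : p ∈ ψ.toFun '' K
  · obtain ⟨y, hy, rfl⟩ := h
    rw [← gdAt_chart_iff ψ, glue_comp]
    exact hU y (hKU hy)
  · exact hp.congr (ψ.glue_eventuallyEq hK hoff h).symm

end Chart

lemma bil_sq_dcoord (ψ φ : Chart M) {x : E2} (h : φ.toFun x ∈ range ψ.toFun) (v w : E2) :
    bil (sq (dcoord ψ φ x)) v w =
      bil (sq ![1, 0]) (fderiv ℝ (ψ.trans φ) x v) (fderiv ℝ (ψ.trans φ) x w) := by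
  rw [bil_sq, bil_sq, dcoord_apply ψ φ h, dcoord_apply ψ φ h]
  simp

variable [IsManifold (𝓡 2) ∞ M] (h : Twisted M) (g : Metric M)

/-- The pullback metric of a glued twist. -/
lemma met_glue [T2Space M] (ψ : Chart M) {u : E2 → R4} {f : M → R4} {K : Set E2} {a δ : E2 → ℝ}
    (hu : ContDiff ℝ ∞ u) (hf : ContMDiff (𝓡 2) (𝓡 4) ∞ f) (hK : IsCompact K)
    (hoff : ∀ x, x ∉ K → u x = f (ψ.toFun x))
    (hmet : ∀ x, met u x =
      met (fun z => f (ψ.toFun z)) x + a x ^ 2 • sq ![1, 0] + δ x • sq (h.nu g ψ x))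
    (φ : Chart M) (x : E2) :
    met (fun z => ψ.glue u f (φ.toFun z)) x = met (fun z => f (φ.toFun z)) x +
      ψ.ext a (φ.toFun x) ^ 2 • sq (dcoord ψ φ x) + ψ.ext δ (φ.toFun x) • sq (h.nu g φ x) := by
  by_cases hr : φ.toFun x ∈ range ψ.toFun
  · refine bil_inj fun v w => ?_
    have he : ∀ k : E2 → ℝ, ψ.ext k (φ.toFun x) = k (ψ.trans φ x) := fun k => by
      rw [← ψ.trans_right φ hr, Chart.ext_apply]
    rw [bil_met_change ψ φ (ψ.glue_contMDiff hu hf hK hoff) hr, Chart.glue_comp, hmet, bil_add,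
      bil_add, bil_add, bil_add, bil_smul, bil_smul, bil_smul, bil_smul, he, he,
      ← bil_met_change ψ φ hf hr, ← bil_sq_dcoord ψ φ hr, ← h.bil_sq_nu_change g ψ φ hr]
  · have he : (fun z => ψ.glue u f (φ.toFun z)) =ᶠ[𝓝 x] fun z => f (φ.toFun z) :=
      (ψ.glue_eventuallyEq hK hoff (p := φ.toFun x)
        fun ⟨y, _, hy⟩ => hr ⟨y, hy⟩).comp_tendsto φ.continuous.continuousAt
    rw [Chart.ext_of_notMem _ _ hr, Chart.ext_of_notMem _ _ hr]
    simp only [met, pd, he.fderiv_eq]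
    simp

namespace Twisted

lemma contDiff_nu (ψ : Chart M) (i : Fin 2) : ContDiff ℝ ∞ fun x => h.nu g ψ x i := by
  have hg := contDiff_gc g ψ
  have hd : ∀ i, ContDiff ℝ ∞ fun x => h.d ψ x i := fun i => contDiff_pd (h.smooth ψ) i
  have hs : ContDiff ℝ ∞ fun x => Real.sqrt (gc g ψ x 0 * gc g ψ x 2 - gc g ψ x 1 ^ 2) :=
    contDiff_iff_contDiffAt.2 fun x => (Real.contDiffAt_sqrt (gc_pos g ψ x).2.2.ne').comp x
      (((hg 0).mul (hg 2)).sub ((hg 1).pow 2)).contDiffAt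
  have hne : ∀ x, Real.sqrt (gc g ψ x 0 * gc g ψ x 2 - gc g ψ x 1 ^ 2) ≠ 0 := fun x =>
    Real.sqrt_ne_zero'.2 (gc_pos g ψ x).2.2
  fin_cases i
  · exact (((hg 0).mul (hd 1)).sub ((hg 1).mul (hd 0))).div hs hne
  · exact (((hg 1).mul (hd 1)).sub ((hg 2).mul (hd 0))).div hs hne

end Twisted

lemma inner_fderiv_eq_zero {f : E2 → R4} {x : E2} {n : R4} (h : ∀ i, ⟪n, pd i f x⟫ = 0) (v : E2) :
    ⟪fderiv ℝ f x v, n⟫ = 0 := by
  rw [real_inner_comm, apply_eq_pd, inner_add_right, real_inner_smul_right, real_inner_smul_right,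
    h, h]
  simp

/-- A unit normal field follows a twist. -/
lemma framed_glue [T2Space M] (ψ : Chart M) {u : E2 → R4} {f n : M → R4} {K : Set E2}
    (hfn : Framed f n) (hu : ContDiff ℝ ∞ u) (hiu : IsImm u) (hK : IsCompact K)
    (hoff : ∀ x, x ∉ K → u x = f (ψ.toFun x))
    (hne : ∀ x w, nrm (fun z => f (ψ.toFun z)) x w = w → w ≠ 0 → nrm u x w ≠ 0) :
    ∃ n' : M → R4, Framed (ψ.glue u f) n' ∧ ∀ p ∉ ψ.toFun '' K, n' =ᶠ[𝓝 p] n := by
  obtain ⟨hf, hn, hunit, horth⟩ := hfn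
  set w : E2 → R4 := fun y => nrm u y (n (ψ.toFun y)) with hw
  have hwn : ∀ y, w y ≠ 0 := fun y => hne y _
    (nrm_self_of_orth _ _ (inner_fderiv_eq_zero ((horth ψ).2 y)))
    (norm_pos_iff.1 (by rw [hunit]; exact one_pos))
  have hws : ContDiff ℝ ∞ w := (contDiff_nrmL hu hiu).clm_apply (ψ.contDiff_comp hn)
  set m : E2 → R4 := fun y => ‖w y‖⁻¹ • w y with hm
  have hms : ContDiff ℝ ∞ m := ((hws.norm ℝ hwn).inv fun y => norm_ne_zero_iff.2 (hwn y)).smul hws
  have hmoff : ∀ y, y ∉ K → m y = n (ψ.toFun y) := fun y hy => by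
    have he : u =ᶠ[𝓝 y] fun z => f (ψ.toFun z) := by
      filter_upwards [hK.isClosed.isOpen_compl.mem_nhds hy] with z hz
      exact hoff z hz
    have h1 : w y = n (ψ.toFun y) := by
      have h2 : nrm u y (n (ψ.toFun y)) = nrm (fun z => f (ψ.toFun z)) y (n (ψ.toFun y)) := by
        simp only [nrm, he.fderiv_eq]
      rw [hw]
      exact h2.trans (nrm_self_of_orth _ _ (inner_fderiv_eq_zero ((horth ψ).2 y)))
    simp [hm, h1, hunit]
  have hF := ψ.glue_contMDiff hu hf hK hoff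
  refine ⟨ψ.glue m n, ⟨hF, ψ.glue_contMDiff hms hn hK hmoff, fun p => ?_, fun φ => ⟨?_, ?_⟩⟩,
    fun p hp => ψ.glue_eventuallyEq hK hmoff hp⟩
  · by_cases hp : p ∈ range ψ.toFun
    · obtain ⟨y, rfl⟩ := hp
      rw [Chart.glue_apply, hm, norm_smul, norm_inv, norm_norm,
        inv_mul_cancel₀ (norm_ne_zero_iff.2 (hwn y))]
    · rw [ψ.glue_of_notMem _ _ hp, hunit]
  · exact ψ.isImm_glue hu hf hK hoff hiu (fun φ => (horth φ).1) φ
  · intro x i
    by_cases hr : φ.toFun x ∈ range ψ.toFun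
    · show ⟪ψ.glue m n (φ.toFun x), fderiv ℝ (fun z => ψ.glue u f (φ.toFun z)) x (ev i)⟫ = 0
      rw [fderiv_change ψ φ hF hr, Chart.glue_comp, ← ψ.trans_right φ hr, Chart.glue_apply,
        ContinuousLinearMap.comp_apply, real_inner_comm, hm, real_inner_smul_right, hw,
        nrm_mem, mul_zero]
    · have hp : φ.toFun x ∉ ψ.toFun '' K := fun ⟨y, _, hy⟩ => hr ⟨y, hy⟩
      have he : (fun z => ψ.glue u f (φ.toFun z)) =ᶠ[𝓝 x] fun z => f (φ.toFun z) :=
        (ψ.glue_eventuallyEq hK hoff hp).comp_tendsto φ.continuous.continuousAt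
      show ⟪ψ.glue m n (φ.toFun x), fderiv ℝ (fun z => ψ.glue u f (φ.toFun z)) x (ev i)⟫ = 0
      rw [ψ.glue_of_notMem _ _ hr, he.fderiv_eq]
      exact (horth φ).2 x i

/-- The cap bounds only see the germs on the cap. -/
lemma CapBd.congr {Z : Set M} {κ B : ℝ} {f n f' n' : M → R4} (hb : CapBd g h Z κ B f n)
    (hf : ∀ p ∈ Z, f' =ᶠ[𝓝 p] f) (hn : ∀ p ∈ Z, n' =ᶠ[𝓝 p] n) : CapBd g h Z κ B f' n' := by
  intro φ x hx
  have hef : (fun z => f' (φ.toFun z)) =ᶠ[𝓝 x] fun z => f (φ.toFun z) :=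
    (hf _ hx).comp_tendsto φ.continuous.continuousAt
  have hen : (fun z => n' (φ.toFun z)) =ᶠ[𝓝 x] fun z => n (φ.toFun z) :=
    (hn _ hx).comp_tendsto φ.continuous.continuousAt
  have := hb φ x hx
  simp only [II_congr hef, hen.fderiv_eq]
  rw [show n' (φ.toFun x) = n (φ.toFun x) from hen.eq_of_nhds]
  exact this

lemma II_smul {f : E2 → R4} (hf : ContDiff ℝ ∞ f) (x v : E2) (c : ℝ) :
    II f x (c • v) = c ^ 2 • II f x v := by
  have hd : Differentiable ℝ fun z => fderiv ℝ f z v :=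
    (((contDiff_infty_iff_fderiv.1 hf).2).clm_apply contDiff_const).differentiable infty_ne_zero
  have h1 : (fun z => fderiv ℝ f z (c • v)) = fun z => c • fderiv ℝ f z v := by
    funext z; exact map_smul _ c v
  simp only [II, nrm]
  rw [h1, show (fun z => c • fderiv ℝ f z v) = c • fun z => fderiv ℝ f z v from rfl,
    fderiv_const_smul hd.differentiableAt, smul_apply, map_smul, map_smul, map_smul, smul_smul, pow_two]

end Vale.Agent.P205F
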