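import Vale.Agent.P205F.Main.Step

/-!
# P205, main: isometric immersions of closed surfaces from the modules

Start, one twist modulo `ν²` for each primitive term, the crest, then final twists over a cover by
flow boxes.
-/

namespace Vale.Agent.P205F

open Set Function Filter
open scoped Manifold ContDiff RealInnerProductSpace Topology

universe u

variable {M : Type u} [TopologicalSpace M] [T2Space M] [ChartedSpace E2 M]
  [IsManifold (𝓡 2) ∞ M] (g : Metric M)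

/-- All primitive terms are removed by twists modulo `ν²`. -/
lemma exists_mod_twists (hMod : ModTwistStmt) (S : Shape M) {N : ℕ} (P : Fin N → Prim M)
    {η ε : ℝ} (hε : 0 < ε) {f n : M → R4} (hfn : Framed f n)
    (hcap : CapBd g S.h S.Z S.κ S.B f n)
    (hmet : ∀ φ x, gc g φ x = met (fun z => f (φ z)) x + (η * S.θf (φ x) ^ 2) • sq (S.h.nu g φ x)
      + (η * S.θ0 (φ x) ^ 2) • sq (S.h.d φ x) + ∑ i, (P i).val φ x)
    (hP : ∀ i, ∀ x, S.h.nu g (P i).ψ x 1 ≠ 0 ∧ GdAt f ((P i).ψ x))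
    (hsupp : ∀ i, ∀ x ∈ tsupport (P i).a, (P i).ψ x ∉ closure S.Z ∧
      ∀ᶠ q in 𝓝 ((P i).ψ x), S.θ0 q = 1) (T : Finset (Fin N)) :
    ∃ (f' n' : M → R4) (D : M → ℝ), Framed f' n' ∧ CapBd g S.h S.Z S.κ S.B f' n' ∧
      ContMDiff (𝓡 2) 𝓘(ℝ, ℝ) ∞ D ∧ (∀ p, |D p| ≤ (T.card : ℝ) * ε) ∧
      (∀ p, D p ≠ 0 → p ∉ S.Z ∧ S.θ0 p = 1) ∧ (∀ p, GdAt f p → GdAt f' p) ∧
      ∀ φ x, gc g φ x = met (fun z => f' (φ z)) x
        + (η * S.θf (φ x) ^ 2 + D (φ x)) • sq (S.h.nu g φ x)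
        + (η * S.θ0 (φ x) ^ 2) • sq (S.h.d φ x) + ∑ i ∈ Tᶜ, (P i).val φ x := by
  classical
  induction T using Finset.induction_on with
  | empty =>
    refine ⟨f, n, fun _ => 0, hfn, hcap, contMDiff_const, by simp, by simp, fun p h => h,
      fun φ x => ?_⟩
    simpa using hmet φ x
  | @insert j T hj ih =>
    obtain ⟨f1, n1, D, hfn1, hcap1, hD, hDb, hDs, hgd, hm1⟩ := ih
    set ψ := (P j).ψ with hψ
    have hW : IsOpen ((closure S.Z)ᶜ ∩ interior {q | S.θ0 q = 1}) :=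
      isClosed_closure.isOpen_compl.inter isOpen_interior
    set U : Set E2 := ψ.toFun ⁻¹' ((closure S.Z)ᶜ ∩ interior {q | S.θ0 q = 1}) with hU
    obtain ⟨u, δ, hu, hδ, hiu, ⟨K, hK, hKU, hoff⟩, hδc, hδU, hδb, hmu, hgu, hne⟩ :=
      hMod (fun z => f1 (ψ.toFun z)) (P j).a (fun x => S.h.nu g ψ x) U
        (ψ.contDiff_comp hfn1.1) (hfn1.2.2.2 ψ).1 (P j).smooth (P j).compact
        (hW.preimage ψ.continuous)
        (fun x hx => ⟨(hsupp j x hx).1, mem_interior_iff_mem_nhds.2 (hsupp j x hx).2⟩)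
        (S.h.contDiff_nu g ψ) (fun x _ => (hP j x).1)
        (fun x _ => (gdAt_chart_iff ψ f1 x).2 (hgd _ (hP j x).2)) ε hε
    obtain ⟨n2, hfn2, hn2⟩ := framed_glue ψ hfn1 hu hiu hK hoff hne
    have hZ : ∀ p ∈ S.Z, p ∉ ψ.toFun '' K := by
      rintro _ hp ⟨y, hy, rfl⟩
      exact (hKU hy).1 (subset_closure hp)
    refine ⟨ψ.glue u f1, n2, fun p => D p - ψ.ext δ p, hfn2,
      hcap1.congr S.h g (fun p hp => ψ.glue_eventuallyEq hK hoff (hZ p hp))
        (fun p hp => hn2 p (hZ p hp)),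
      hD.sub (ψ.ext_contMDiff hδ hδc), fun p => ?_, fun p hp => ?_,
      fun p h => ψ.gdAt_glue hK hKU hoff hgu (hgd p h), fun φ x => ?_⟩
    · rw [Finset.card_insert_of_notMem hj, Nat.cast_add_one, add_one_mul]
      refine (abs_sub _ _).trans (add_le_add (hDb p) ?_)
      by_cases hr : p ∈ range ψ.toFun
      · obtain ⟨y, rfl⟩ := hr
        simpa using hδb y
      · simpa [ψ.ext_of_notMem _ hr] using hε.le
    · by_cases h0 : ψ.ext δ p = 0
      · exact hDs p (by simpa [h0] using hp)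
      · obtain ⟨y, hy, rfl⟩ := ψ.tsupport_ext hδc (subset_tsupport _ h0)
        exact ⟨fun hz => (hδU hy).1 (subset_closure hz),
          interior_subset (s := {q | S.θ0 q = 1}) (hδU hy).2⟩
    · rw [hm1 φ x, met_glue S.h g ψ hu hfn1.1 hK hoff hmu φ x]
      rw [show Tᶜ = insert j (insert j T)ᶜ by
          ext i; simp only [Finset.mem_compl, Finset.mem_insert]; by_cases hi : i = j <;> simp [hi, hj],
        Finset.sum_insert (by simp), Prim.val_eq]
      module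

/-- The final twists over flow boxes remove `c² ν²`. -/
lemma exists_final_twists (hFinal : FinalTwistStmt) (h : Twisted M) {V : Set M} {N : ℕ}
    (ψ : Fin N → Chart M) (a : Fin N → E2 → ℝ) (hV : ∀ i, range (ψ i).toFun ⊆ V)
    (hν : ∀ i x, h.nu g (ψ i) x 1 = 0) (ha : ∀ i, ContDiff ℝ ∞ (a i))
    (hac : ∀ i, HasCompactSupport (a i)) {f : M → R4} {c : M → ℝ}
    (hf : ContMDiff (𝓡 2) (𝓡 4) ∞ f) (hc : ContMDiff (𝓡 2) 𝓘(ℝ, ℝ) ∞ c)
    (hi : ∀ φ : Chart M, IsImm fun z => f (φ.toFun z))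
    (hgd : ∀ (φ : Chart M) x, φ x ∈ V → GdAt f (φ x) ∧
      II (fun z => f (φ z)) x (h.efin g φ x) ≠ 0) (T : Finset (Fin N)) :
    ∃ f' : M → R4, ContMDiff (𝓡 2) (𝓡 4) ∞ f' ∧
      (∀ φ : Chart M, IsImm fun z => f' (φ.toFun z)) ∧
      (∀ (φ : Chart M) x, φ x ∈ V → GdAt f' (φ x) ∧
        II (fun z => f' (φ z)) x (h.efin g φ x) ≠ 0) ∧
      ∀ (φ : Chart M) x, met (fun z => f' (φ z)) x = met (fun z => f (φ z)) x +
        (c (φ x) ^ 2 * ∑ i ∈ T, (ψ i).ext (a i) (φ x) ^ 2) • sq (h.nu g φ x) := by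
  classical
  induction T using Finset.induction_on with
  | empty => exact ⟨f, hf, hi, hgd, fun φ x => by simp⟩
  | @insert j T hj ih =>
    obtain ⟨f1, hf1, hi1, hgd1, hm1⟩ := ih
    have hVj : ∀ y, (ψ j).toFun y ∈ V := fun y => hV j ⟨y, rfl⟩
    have hefin : ∀ y, h.efin g (ψ j) y = h.nu g (ψ j) y 0 • ev 1 := fun y => by
      simp [Twisted.efin, hν j y]
    let b : E2 → ℝ := fun y => c ((ψ j).toFun y) * a j y * h.nu g (ψ j) y 0
    have hb : ContDiff ℝ ∞ b :=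
      (((ψ j).contDiff_comp hc).mul (ha j)).mul (h.contDiff_nu g (ψ j) 0)
    have hbc : HasCompactSupport b := ((hac j).mul_left).mul_right
    have hfy : ContDiff ℝ ∞ fun z => f1 ((ψ j).toFun z) := (ψ j).contDiff_comp hf1
    have hne : ∀ y, h.nu g (ψ j) y 0 ≠ 0 ∧ II (fun z => f1 ((ψ j).toFun z)) y (ev 1) ≠ 0 := by
      intro y
      have h0 := (hgd1 (ψ j) y (hVj y)).2
      rw [hefin, II_smul hfy] at h0
      exact ⟨fun e => h0 (by simp [e]), fun e => h0 (by rw [e, smul_zero])⟩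
    obtain ⟨u, hu, hiu, ⟨K, hK, -, hoff⟩, hmu, hgu, hIIu⟩ :=
      hFinal _ b univ hfy (hi1 (ψ j)) hb hbc isOpen_univ (subset_univ _)
        (fun y _ => (gdAt_chart_iff (ψ j) f1 y).2 (hgd1 (ψ j) y (hVj y)).1) (fun y _ => (hne y).2)
    have hF := (ψ j).glue_contMDiff hu hf1 hK hoff
    refine ⟨(ψ j).glue u f1, hF, (ψ j).isImm_glue hu hf1 hK hoff hiu hi1, fun φ x hx => ⟨?_, ?_⟩,
      fun φ x => ?_⟩
    · exact (ψ j).gdAt_glue hK (subset_univ _) hoff hgu (hgd1 φ x hx).1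
    · by_cases hr : φ.toFun x ∈ range (ψ j).toFun
      · rw [II_change (ψ j) φ hF hr, Chart.glue_comp, h.efin_change g (ψ j) φ hr, II_smul hu, hefin,
          II_smul hu, smul_smul]
        exact smul_ne_zero (mul_ne_zero
          (pow_ne_zero _ (det_ne_zero_of_injective ((ψ j).trans_fderiv_injective φ hr)))
          (pow_ne_zero _ (hne _).1)) (hIIu _ (mem_univ _))
      · have he : (fun z => (ψ j).glue u f1 (φ.toFun z)) =ᶠ[𝓝 x] fun z => f1 (φ.toFun z) :=
          ((ψ j).glue_eventuallyEq hK hoff (p := φ.toFun x)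
            fun ⟨y, _, hy⟩ => hr ⟨y, hy⟩).comp_tendsto φ.continuous.continuousAt
        rw [II_congr he]
        exact (hgd1 φ x hx).2
    · rw [met_glue h g (ψ j) (a := b) (δ := 0) hu hf1 hK hoff (fun y => by simpa using hmu y),
        hm1 φ x, Finset.sum_insert hj]
      have key : (ψ j).ext b (φ.toFun x) ^ 2 • sq (dcoord (ψ j) φ x) =
          (c (φ.toFun x) ^ 2 * (ψ j).ext (a j) (φ.toFun x) ^ 2) • sq (h.nu g φ x) := by
        by_cases hr : φ.toFun x ∈ range (ψ j).toFun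
        · refine bil_inj fun v w => ?_
          rw [bil_smul, bil_smul, bil_sq_dcoord _ _ hr, h.bil_sq_nu_change g (ψ j) φ hr,
            ← (ψ j).trans_right φ hr]
          simp only [Chart.ext_apply, bil_sq, hν, b]
          simp
          ring
        · simp [(ψ j).ext_of_notMem _ hr]
      have h0 : (ψ j).ext (0 : E2 → ℝ) (φ.toFun x) = 0 := by
        by_cases hr : φ.toFun x ∈ range (ψ j).toFun
        · obtain ⟨y, hy⟩ := hr
          simp [← hy]
        · exact (ψ j).ext_of_notMem _ hr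
      rw [key, h0]
      module

/-- Every closed surface, from the modules. -/
theorem isomStmt_of_modules (hTop : TopStmt.{u}) (hStart : StartStmt.{u}) (hMod : ModTwistStmt)
    (hCrest : CrestStmt.{u}) (hPatch : PatchStmt.{u}) (hFinal : FinalTwistStmt) : IsomStmt.{u} := by
  intro M _ _ _ _ _ g
  classical
  obtain ⟨f0, n0, hf0, hn0, hi0, hu0, ho0⟩ := hTop M
  obtain ⟨S, hS⟩ := hStart M g f0 n0 ⟨hf0, hn0, hu0, fun ψ => ⟨hi0 ψ, ho0 ψ⟩⟩
  obtain ⟨η0, hη0, hcrest⟩ := hCrest M g S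
  obtain ⟨η, hη, hηle, f, n, N, P, hfn, hcap, hmet, hgdθ, hP, hsupp⟩ := hS η0 hη0
  obtain ⟨f1, n1, D, hfn1, hcap1, hD, hDb, hDs, hgd1, hm1⟩ :=
    exists_mod_twists g hMod S P (ε := η / (2 * ((N : ℝ) + 1))) (by positivity) hfn hcap hmet hP
      hsupp Finset.univ
  have hDη : ∀ p, |D p| ≤ η / 2 := fun p => by
    refine (hDb p).trans ?_
    rw [Finset.card_univ, Fintype.card_fin, ← mul_div_assoc,
      div_le_div_iff₀ (by positivity) two_pos]
    nlinarith [mul_nonneg hη.le (Nat.cast_nonneg N : (0 : ℝ) ≤ N)]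
  have hθ : ∀ p ∈ tsupport S.θ0, S.θf p = 1 := fun p hp => (S.θ0_supp p hp).self_of_nhds
  have hDθ : ∀ p, D p ≠ 0 → S.θf p = 1 := fun p hp =>
    hθ p (subset_tsupport _ (by simp [(hDs p hp).2]))
  have hpos : ∀ p, 0 < η + D p := fun p => by linarith [neg_abs_le (D p), hDη p]
  set c : M → ℝ := fun p => S.θf p * Real.sqrt (η + D p) with hc
  have hcs : ContMDiff (𝓡 2) 𝓘(ℝ, ℝ) ∞ c := by
    refine S.θf_smooth.mul fun p => ?_
    exact (Real.contDiffAt_sqrt (hpos p).ne').contMDiffAt.comp p (contMDiff_const.add hD p)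
  have hc2 : ∀ p, c p ^ 2 = η * S.θf p ^ 2 + D p := fun p => by
    rw [hc, mul_pow, Real.sq_sqrt (hpos p).le]
    by_cases h : D p = 0
    · rw [h, add_zero, add_zero, mul_comm]
    · rw [hDθ p h]
      ring
  obtain ⟨f2, c', V, hf2, hc', hVo, hc'V, hVcrit, hi2, hm2, hgd2⟩ :=
    hcrest η hη hηle f1 n1 c hfn1 hcap1 hcs tsupport_mul_subset_left
      (fun p hp => by
        simp only [hc]
        rw [hθ p hp, one_mul]
        exact Real.sqrt_pos.2 (hpos p))
      (fun p hp => by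
        rw [hc2]
        by_cases h : D p = 0
        · rw [h, add_zero]
        · exact absurd hp (hDs p h).1)
      (fun p => by
        rw [hc2]
        have h1 : S.θf p ^ 2 ≤ 1 := by nlinarith [(S.θf_range p).1, (S.θf_range p).2]
        nlinarith [le_abs_self (D p), hDη p])
      (fun φ x => by
        have := hm1 φ x
        rwa [Finset.compl_univ, Finset.sum_empty, add_zero, ← hc2] at this)
      (fun p hp => hgd1 p (hgdθ p hp))
  obtain ⟨k, ψ, a, hψ, ha, hac, -, -, hsum⟩ :=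
    exists_cover_of (fun ψ : Chart M => range ψ.toFun ⊆ V ∧ ∀ x, S.h.nu g ψ x 1 = 0)
      (isClosed_tsupport c').isCompact
      fun p hp => by
        obtain ⟨ψ, h1, h2, h3⟩ := hPatch M g S.h V p hVo (hc'V hp)
          (Set.disjoint_left.1 hVcrit (hc'V hp))
        exact ⟨ψ, h1, h2, h3⟩
  obtain ⟨f3, hf3, -, -, hm3⟩ :=
    exists_final_twists g hFinal S.h ψ a (fun i => (hψ i).1) (fun i => (hψ i).2) ha hac hf2 hc' hi2
      hgd2 Finset.univ
  refine ⟨f3, hf3, inner_mfderiv_of_met_eq g hf3 fun φ x => ?_⟩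
  rw [hm3 φ x, hm2 φ x]
  by_cases hp : φ.toFun x ∈ tsupport c'
  · rw [hsum _ hp, mul_one]
  · simp [image_eq_zero_of_notMem_tsupport hp]

end Vale.Agent.P205F
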